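import Vale.Agent.H20.P344.Defs

namespace Vale.Agent.H20.P344

variable {V W : Type} [AddCommGroup V] [Module ℂ V] [AddCommGroup W] [Module ℂ W]

theorem Computes.mono {k : ℕ} {S T : Set V} (h : Computes k S T) :
    ∀ {S' T' : Set V}, S ⊆ insert 0 S' → T' ⊆ insert 0 T → Computes k S' T' := by
  have aux : ∀ {S S' : Set V} (w : V), S ⊆ insert 0 S' → insert w S ⊆ insert 0 (insert w S') := by
    intro S S' w h x hx
    rcases hx with rfl | hx
    · right; left; rfl
    · rcases h hx with h | h
      · left; exact h
      · right; right; exact h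
  have aux2 : ∀ {S S' : Set V} {u : V}, S ⊆ insert 0 S' → u ∈ insert 0 S → u ∈ insert 0 S' := by
    intro S S' u h hu
    rcases hu with rfl | hu
    · left; rfl
    · exact h hu
  induction h with
  | done S T h =>
    intro S' T' hS hT
    refine Computes.done _ _ (fun x hx => ?_)
    exact aux2 hS (aux2 h (hT hx))
  | add k S T u v hu hv h ih =>
    intro S' T' hS hT
    exact Computes.add k S' T' u v (aux2 hS hu) (aux2 hS hv) (ih (aux _ hS) hT)
  | sub k S T u v hu hv h ih =>
    intro S' T' hS hT
    exact Computes.sub k S' T' u v (aux2 hS hu) (aux2 hS hv) (ih (aux _ hS) hT)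
  | smul k S T c u hu h ih =>
    intro S' T' hS hT
    exact Computes.smul k S' T' c u (aux2 hS hu) (ih (aux _ hS) hT)

theorem Computes.keep {k : ℕ} {S T : Set V} (h : Computes k S T) : Computes k S (S ∪ T) := by
  induction h with
  | done S T h =>
    refine Computes.done _ _ (fun x hx => ?_)
    rcases hx with hx | hx
    · right; exact hx
    · exact h hx
  | add k S T u v hu hv h ih =>
    exact Computes.add k S _ u v hu hv (ih.mono (Set.subset_insert _ _)
      (fun x hx => Or.inr (hx.imp (fun h => Or.inr h) id)))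
  | sub k S T u v hu hv h ih =>
    exact Computes.sub k S _ u v hu hv (ih.mono (Set.subset_insert _ _)
      (fun x hx => Or.inr (hx.imp (fun h => Or.inr h) id)))
  | smul k S T c u hu h ih =>
    exact Computes.smul k S _ c u hu (ih.mono (Set.subset_insert _ _)
      (fun x hx => Or.inr (hx.imp (fun h => Or.inr h) id)))

theorem Computes.trans {a b : ℕ} {S T U : Set V} (h : Computes a S T) (h' : Computes b T U) :
    Computes (a + b) S U := by
  induction h with
  | done S T h =>
    rw [zero_add]
    exact h'.mono h (Set.subset_insert _ _)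
  | add k S T u v hu hv h ih =>
    rw [Nat.add_right_comm]
    exact Computes.add _ S _ u v hu hv (ih h')
  | sub k S T u v hu hv h ih =>
    rw [Nat.add_right_comm]
    exact Computes.sub _ S _ u v hu hv (ih h')
  | smul k S T c u hu h ih =>
    rw [Nat.add_right_comm]
    exact Computes.smul _ S _ c u hu (ih h')

theorem Computes.par {a b : ℕ} {S T U : Set V} (h : Computes a S T) (h' : Computes b S U) :
    Computes (a + b) S (T ∪ U) := by
  refine h.keep.trans ((h'.mono (S' := S ∪ T) (T' := U) ?_ (Set.subset_insert _ _)).keep.mono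
    (Set.subset_insert _ _) ?_)
  · exact fun x hx => Or.inr (Or.inl hx)
  · intro x hx
    rcases hx with hx | hx
    · right; left; right; exact hx
    · right; right; exact hx

theorem computes_iUnion {ι : Type} (s : Finset ι) (a : ℕ) (S : Set V) (T : ι → Set V)
    (h : ∀ i ∈ s, Computes a S (T i)) : Computes (s.card * a) S (⋃ i ∈ s, T i) := by
  classical
  induction s using Finset.induction_on with
  | empty =>
    simp only [Finset.card_empty, zero_mul]
    exact Computes.done _ _ (by simp)
  | insert i s hi ih =>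
    rw [Finset.card_insert_of_notMem hi, add_mul, one_mul, Finset.set_biUnion_insert,
      Set.union_comm]
    exact (ih fun j hj => h j (Finset.mem_insert_of_mem hj)).par (h i (Finset.mem_insert_self i s))

theorem Computes.map {k : ℕ} {S T : Set V} (h : Computes k S T) (f : V →ₗ[ℂ] W) :
    Computes k (f '' S) (f '' T) := by
  have aux : ∀ {S : Set V} {u : V}, u ∈ insert 0 S → f u ∈ insert 0 (f '' S) := by
    intro S u hu
    rcases hu with rfl | hu
    · left; exact map_zero f
    · right; exact ⟨u, hu, rfl⟩
  induction h with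
  | done S T h =>
    refine Computes.done _ _ ?_
    rintro _ ⟨x, hx, rfl⟩
    exact aux (h hx)
  | add k S T u v hu hv h ih =>
    refine Computes.add k _ _ (f u) (f v) (aux hu) (aux hv) ?_
    rw [← map_add, ← Set.image_insert_eq]; exact ih
  | sub k S T u v hu hv h ih =>
    refine Computes.sub k _ _ (f u) (f v) (aux hu) (aux hv) ?_
    rw [← map_sub, ← Set.image_insert_eq]; exact ih
  | smul k S T c u hu h ih =>
    refine Computes.smul k _ _ c (f u) (aux hu) ?_
    rw [← map_smul, ← Set.image_insert_eq]; exact ih

theorem computes_smul (S : Set V) (c : ℂ) (u : V) (hu : u ∈ insert 0 S) :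
    Computes 1 S {c • u} :=
  Computes.smul 0 S _ c u hu (Computes.done _ _ (by
    rintro _ rfl; right; left; rfl))

theorem computes_diag {ι : Type} [Fintype ι] (x : ι → V) (c : ι → ℂ) :
    Computes (Fintype.card ι) (Set.range x) (Set.range fun i => c i • x i) := by
  have := computes_iUnion (Finset.univ : Finset ι) 1 (Set.range x) (fun i => {c i • x i})
    (fun i _ => computes_smul _ _ _ (Or.inr ⟨i, rfl⟩))
  rw [mul_one, Finset.card_univ] at this
  refine this.mono (Set.subset_insert _ _) ?_
  rintro _ ⟨i, rfl⟩
  right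
  simp only [Set.mem_iUnion]
  exact ⟨i, Finset.mem_univ _, rfl⟩

/-- a transform with `n` inputs costs at most `k` -/
def Dft (k n : ℕ) : Prop := ∀ (V : Type) [AddCommGroup V] [Module ℂ V] (x : Fin n → V),
  Computes k (Set.range x) (Set.range fun i : Fin n => ∑ j : Fin n, zeta n ^ ((i : ℕ) * (j : ℕ)) • x j)

theorem computes_sum {ι : Type} (s : Finset ι) (x : ι → V) (c : ι → ℂ) :
    Computes (s.card * 2) (Set.range x) {∑ j ∈ s, c j • x j} := by
  classical
  induction s using Finset.induction_on with
  | empty =>
    simp only [Finset.card_empty, zero_mul, Finset.sum_empty]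
    exact Computes.done _ _ (by rintro _ rfl; left; rfl)
  | insert i s hi ih =>
    rw [Finset.card_insert_of_notMem hi, Finset.sum_insert hi,
      show (s.card + 1) * 2 = (s.card * 2 + 1) + 1 from by ring]
    have h1 := ih.par (computes_smul (Set.range x) (c i) (x i) (Or.inr ⟨i, rfl⟩))
    refine h1.trans (Computes.add 0 _ _ (c i • x i) (∑ j ∈ s, c j • x j) ?_ ?_
      (Computes.done _ _ ?_))
    · right; right; rfl
    · right; left; rfl
    · rintro _ rfl; right; left; rfl

theorem L_nonempty (n : ℕ) : {k | Computes k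
    (Set.range fun j : Fin n => (Pi.single j 1 : Fin n → ℂ))
    (Set.range fun i : Fin n => fun j : Fin n => zeta n ^ ((i : ℕ) * (j : ℕ)))}.Nonempty := by
  classical
  refine ⟨_, (computes_iUnion (Finset.univ : Finset (Fin n))
    ((Finset.univ : Finset (Fin n)).card * 2) _
    (fun i => {∑ j : Fin n, zeta n ^ ((i : ℕ) * (j : ℕ)) • (Pi.single j 1 : Fin n → ℂ)})
    (fun i _ => computes_sum _ _ _)).mono (Set.subset_insert _ _) ?_⟩
  rintro _ ⟨i, rfl⟩
  right
  simp only [Set.mem_iUnion]
  refine ⟨i, Finset.mem_univ _, ?_⟩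
  rw [Set.mem_singleton_iff]
  funext j
  simp [Finset.sum_apply, Pi.single_apply]

theorem dft_L (n : ℕ) : Dft (L n) n := by
  intro V _ _ x
  have h : Computes (L n) (Set.range fun j : Fin n => (Pi.single j 1 : Fin n → ℂ))
    (Set.range fun i : Fin n => fun j : Fin n => zeta n ^ ((i : ℕ) * (j : ℕ))) :=
    Nat.sInf_mem (L_nonempty n)
  have h1 := h.map (Fintype.linearCombination ℂ x)
  refine h1.mono ?_ ?_
  · rintro _ ⟨_, ⟨j, rfl⟩, rfl⟩
    right
    exact ⟨j, by simp [Fintype.linearCombination_apply_single]⟩
  · rintro _ ⟨i, rfl⟩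
    right
    exact ⟨_, ⟨i, rfl⟩, by simp [Fintype.linearCombination_apply]⟩

theorem L_le {k n : ℕ} (h : Dft k n) : L n ≤ k := by
  classical
  apply Nat.sInf_le
  have h1 := h (Fin n → ℂ) (fun j => Pi.single j 1)
  refine h1.mono (Set.subset_insert _ _) ?_
  rintro _ ⟨i, rfl⟩
  right
  refine ⟨i, ?_⟩
  funext j
  simp [Finset.sum_apply, Pi.single_apply]

end Vale.Agent.H20.P344
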