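import Vale.Agent.H20.P344.CT

namespace Vale.Agent.H20.P344

theorem inv_fourier (N : ℕ) (hN : N ≠ 0) (H : ℕ → ℂ) :
    ∃ g : Fin N → ℂ, ∀ r < N, ∑ l : Fin N, g l * zeta N ^ ((l : ℕ) * r) = H r := by
  have hprim : IsPrimitiveRoot (zeta N) N := Complex.isPrimitiveRoot_exp N hN
  have hz := zeta_ne N
  refine ⟨fun l => (1 / N : ℂ) * ∑ s : Fin N, H s * ((zeta N)⁻¹ ^ ((l : ℕ) * s)), fun r hr => ?_⟩
  have hNC : (N : ℂ) ≠ 0 := by exact_mod_cast hN
  calc ∑ l : Fin N, ((1 / N : ℂ) * ∑ s : Fin N, H s * ((zeta N)⁻¹ ^ ((l : ℕ) * s)))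
        * zeta N ^ ((l : ℕ) * r)
      = (1 / N : ℂ) * ∑ s : Fin N, H s * ∑ l : Fin N, (zeta N ^ r * (zeta N)⁻¹ ^ (s : ℕ)) ^ (l : ℕ) := by
        simp only [Finset.mul_sum, Finset.sum_mul]
        rw [Finset.sum_comm]
        refine Finset.sum_congr rfl fun s _ => Finset.sum_congr rfl fun l _ => ?_
        rw [mul_pow, ← pow_mul, ← pow_mul, Nat.mul_comm r l, Nat.mul_comm (s : ℕ) l]
        ring
    _ = (1 / N : ℂ) * ∑ s : Fin N, if s = ⟨r, hr⟩ then H s * N else 0 := by
        congr 1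
        refine Finset.sum_congr rfl fun s _ => ?_
        split_ifs with h
        · subst h
          simp only
          have : zeta N ^ r * (zeta N)⁻¹ ^ r = 1 := by
            rw [← mul_pow, mul_inv_cancel₀ hz, one_pow]
          rw [this]; simp
        · set w := zeta N ^ r * (zeta N)⁻¹ ^ (s : ℕ) with hw
          have hw1 : w ≠ 1 := by
            intro h1
            apply h
            have h2 : zeta N ^ r = zeta N ^ (s : ℕ) := by
              have : w * zeta N ^ (s : ℕ) = zeta N ^ (s : ℕ) := by rw [h1, one_mul]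
              rw [hw, mul_assoc, ← mul_pow, inv_mul_cancel₀ hz, one_pow, mul_one] at this
              exact this
            exact Fin.ext (hprim.pow_inj hr s.2 h2).symm
          have hwN : w ^ N = 1 := by
            rw [hw, mul_pow, ← pow_mul, ← pow_mul, Nat.mul_comm r, Nat.mul_comm (s : ℕ), pow_mul,
              pow_mul, inv_pow, zeta_pow N hN]
            simp
          rw [Fin.sum_univ_eq_sum_range (fun l => w ^ l) N, geom_sum_eq hw1, hwN]
          simp
    _ = H r := by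
        rw [Finset.sum_ite_eq' Finset.univ (⟨r, hr⟩ : Fin N) (fun s : Fin N => H s * N)]
        simp only [Finset.mem_univ, if_true]
        field_simp

theorem bluestein {b n N : ℕ} (hn : n ≠ 0) (hN : 2 * n ≤ N) (hb : Dft b N) :
    Dft (n + b + N + b + n) n := by
  classical
  have hN0 : N ≠ 0 := by omega
  have hnN : n ≤ N := by omega
  intro V _ _ x
  set w : ℂ := Complex.exp (Real.pi * Complex.I / n) with hw
  have hw0 : w ≠ 0 := Complex.exp_ne_zero _
  have hw2 : w ^ 2 = zeta n := by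
    rw [hw, ← Complex.exp_nat_mul, zeta]
    congr 1
    push_cast
    ring
  obtain ⟨g, hg⟩ := inv_fourier N hN0
    (fun r => if r < n then (w⁻¹) ^ (r ^ 2) else (w⁻¹) ^ ((N - r) ^ 2))
  let a : Fin n → V := fun j => w ^ ((j : ℕ) ^ 2) • x j
  have s1 : Computes n (Set.range x) (Set.range a) := by
    have := computes_diag x (fun j : Fin n => w ^ ((j : ℕ) ^ 2))
    rwa [Fintype.card_fin] at this
  let X : Fin N → V := fun l => if h : (l : ℕ) < n then a ⟨l, h⟩ else 0
  let A : Fin N → V := fun i => ∑ j : Fin N, zeta N ^ ((i : ℕ) * (j : ℕ)) • X j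
  have s2 : Computes b (Set.range a) (Set.range A) := by
    refine (hb V X).mono ?_ (Set.subset_insert _ _)
    rintro _ ⟨l, rfl⟩
    by_cases h : (l : ℕ) < n
    · right; exact ⟨⟨l, h⟩, by simp [X, h]⟩
    · left; simp [X, h]
  let B : Fin N → V := fun l => g l • A l
  have s3 : Computes N (Set.range A) (Set.range B) := by
    have := computes_diag A g
    rwa [Fintype.card_fin] at this
  let C : Fin N → V := fun i => ∑ l : Fin N, zeta N ^ ((i : ℕ) * (l : ℕ)) • B l
  have s4 : Computes b (Set.range B) (Set.range C) := hb V B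
  have hidx : ∀ i : Fin n, (N - (i : ℕ)) % N < N := fun i => Nat.mod_lt _ (Nat.pos_of_ne_zero hN0)
  have s5 : Computes n (Set.range C)
      (Set.range fun i : Fin n => w ^ ((i : ℕ) ^ 2) • C ⟨(N - (i : ℕ)) % N, hidx i⟩) := by
    have := computes_diag (fun i : Fin n => C ⟨(N - (i : ℕ)) % N, hidx i⟩)
      (fun i : Fin n => w ^ ((i : ℕ) ^ 2))
    rw [Fintype.card_fin] at this
    refine this.mono ?_ (Set.subset_insert _ _)
    rintro _ ⟨i, rfl⟩
    right; exact ⟨_, rfl⟩
  refine ((((s1.trans s2).trans s3).trans s4).trans s5).mono (Set.subset_insert _ _) ?_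
  rintro _ ⟨i, rfl⟩
  right
  refine ⟨i, ?_⟩
  have hsum : ∀ F : ℕ → ℂ, ∑ j : Fin N, F j • X j = ∑ j : Fin n, F j • a j := by
    intro F
    rw [← Finset.sum_subset (Finset.subset_univ (Finset.univ.map (Fin.castLEEmb hnN)))]
    · rw [Finset.sum_map]
      refine Finset.sum_congr rfl fun j _ => ?_
      simp [X]
    · intro j _ hj
      have h : ¬ (j : ℕ) < n := fun h => hj (Finset.mem_map.2 ⟨⟨j, h⟩, Finset.mem_univ _, rfl⟩)
      simp [X, h]
  have hC : C ⟨(N - (i : ℕ)) % N, hidx i⟩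
      = ∑ j : Fin N, (if ((N - (i : ℕ)) % N + j) % N < n then (w⁻¹) ^ ((((N - (i : ℕ)) % N + j) % N) ^ 2)
        else (w⁻¹) ^ ((N - ((N - (i : ℕ)) % N + j) % N) ^ 2)) • X j := by
    simp only [C, B, A, Finset.smul_sum, smul_smul]
    rw [Finset.sum_comm]
    refine Finset.sum_congr rfl fun j _ => ?_
    rw [← Finset.sum_smul]
    congr 1
    rw [← hg (((N - (i : ℕ)) % N + j) % N) (Nat.mod_lt _ (Nat.pos_of_ne_zero hN0))]
    refine Finset.sum_congr rfl fun l _ => ?_
    have e : zeta N ^ ((l : ℕ) * ((((N - (i : ℕ)) % N + j) % N)))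
        = zeta N ^ ((l : ℕ) * ((N - (i : ℕ)) % N + j)) := by
      rw [Nat.mul_comm (l : ℕ), Nat.mul_comm (l : ℕ), pow_mul, pow_mul]
      congr 1
      exact (pow_eq_pow_mod _ (zeta_pow N hN0)).symm
    rw [e, Nat.mul_add, pow_add]
    ring
  simp only
  rw [hC, hsum (fun j => if ((N - (i : ℕ)) % N + j) % N < n then
    (w⁻¹) ^ ((((N - (i : ℕ)) % N + j) % N) ^ 2) else (w⁻¹) ^ ((N - ((N - (i : ℕ)) % N + j) % N) ^ 2)),
    Finset.smul_sum]
  refine Finset.sum_congr rfl fun j _ => ?_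
  simp only [a, smul_smul]
  congr 1
  have hi := i.2
  have hj := j.2
  have hww : ∀ d : ℕ, (w⁻¹) ^ d * w ^ d = 1 := fun d => by
    rw [← mul_pow, inv_mul_cancel₀ hw0, one_pow]
  have hfin : ∀ d : ℕ, (i : ℕ) ^ 2 + (j : ℕ) ^ 2 = d + 2 * ((i : ℕ) * j) →
      w ^ ((i : ℕ) ^ 2) * ((w⁻¹) ^ d * w ^ ((j : ℕ) ^ 2)) = zeta n ^ ((i : ℕ) * j) := by
    intro d hd
    have : w ^ ((i : ℕ) ^ 2) * ((w⁻¹) ^ d * w ^ ((j : ℕ) ^ 2))
        = (w⁻¹) ^ d * w ^ ((i : ℕ) ^ 2 + (j : ℕ) ^ 2) := by rw [pow_add]; ring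
    rw [this, hd, pow_add, ← mul_assoc, hww, one_mul, pow_mul, hw2]
  rcases Nat.eq_zero_or_pos (i : ℕ) with h0 | h0
  · have e1 : ((N - (i : ℕ)) % N + j) % N = j := by
      rw [h0, Nat.sub_zero, Nat.mod_self, zero_add]
      exact Nat.mod_eq_of_lt (by omega)
    rw [e1, if_pos hj]
    have := hfin ((j : ℕ) ^ 2) (by rw [h0]; ring)
    rw [← this]
  · have e0 : (N - (i : ℕ)) % N = N - i := Nat.mod_eq_of_lt (by omega)
    rw [e0]
    rcases le_or_gt (i : ℕ) j with hij | hij
    · have e1 : (N - (i : ℕ) + j) % N = j - i := by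
        have : N - (i : ℕ) + j = N + (j - i) := by omega
        rw [this, Nat.add_mod_left]
        exact Nat.mod_eq_of_lt (by omega)
      rw [e1, if_pos (by omega)]
      obtain ⟨t, ht⟩ := Nat.exists_eq_add_of_le hij
      have := hfin ((j - i : ℕ) ^ 2) (by rw [ht, Nat.add_sub_cancel_left]; ring)
      rw [← this]
    · have e1 : (N - (i : ℕ) + j) % N = N - (i - j) := by
        have : N - (i : ℕ) + j = N - (i - j) := by omega
        rw [this]
        exact Nat.mod_eq_of_lt (by omega)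
      rw [e1, if_neg (by omega)]
      obtain ⟨t, ht⟩ := Nat.exists_eq_add_of_le hij.le
      have e2 : N - (N - ((i : ℕ) - j)) = i - j := by omega
      rw [e2]
      have := hfin ((i - j : ℕ) ^ 2) (by rw [ht, Nat.add_sub_cancel_left]; ring)
      rw [← this]

end Vale.Agent.H20.P344
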