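import Vale.Agent.H20.P344.A

namespace Vale.Agent.H20.P344

theorem zeta_ne (n : ℕ) : zeta n ≠ 0 := Complex.exp_ne_zero _

theorem zeta_pow (n : ℕ) (hn : n ≠ 0) : zeta n ^ n = 1 := by
  unfold zeta
  rw [← Complex.exp_nat_mul]
  have : (n : ℂ) ≠ 0 := by exact_mod_cast hn
  rw [mul_div_cancel₀ _ this]
  exact Complex.exp_two_pi_mul_I

theorem zeta_mul_pow (n m : ℕ) (hn : n ≠ 0) (hm : m ≠ 0) : zeta (n * m) ^ m = zeta n := by
  unfold zeta
  rw [← Complex.exp_nat_mul]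
  have h1 : (n : ℂ) ≠ 0 := by exact_mod_cast hn
  have h2 : (m : ℂ) ≠ 0 := by exact_mod_cast hm
  congr 1
  push_cast
  field_simp

theorem dft_mul {a b n m : ℕ} (hn : n ≠ 0) (hm : m ≠ 0) (ha : Dft a n) (hb : Dft b m) :
    Dft (m * a + m * n + n * b) (n * m) := by
  classical
  intro V _ _ x
  -- step 1
  let y : Fin m → Fin n → V := fun j₂ i₁ =>
    ∑ j₁ : Fin n, zeta n ^ ((i₁ : ℕ) * (j₁ : ℕ)) • x (finProdFinEquiv (j₁, j₂))
  have s1 : Computes (m * a) (Set.range x) (⋃ j₂ ∈ (Finset.univ : Finset (Fin m)),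
      Set.range (y j₂)) := by
    have := computes_iUnion (Finset.univ : Finset (Fin m)) a (Set.range x)
      (fun j₂ => Set.range (y j₂)) (fun j₂ _ => by
        refine (ha V (fun j₁ => x (finProdFinEquiv (j₁, j₂)))).mono ?_ (Set.subset_insert _ _)
        rintro _ ⟨j₁, rfl⟩
        right; exact ⟨_, rfl⟩)
    rwa [Finset.card_univ, Fintype.card_fin] at this
  have s1' : Computes (m * a) (Set.range x) (Set.range fun p : Fin m × Fin n => y p.1 p.2) := by
    refine s1.mono (Set.subset_insert _ _) ?_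
    rintro _ ⟨p, rfl⟩
    right
    simp only [Set.mem_iUnion]
    exact ⟨p.1, Finset.mem_univ _, p.2, rfl⟩
  -- step 2
  let z : Fin m × Fin n → V := fun p => zeta (n * m) ^ ((p.2 : ℕ) * (p.1 : ℕ)) • y p.1 p.2
  have s2 : Computes (m * n) (Set.range fun p : Fin m × Fin n => y p.1 p.2) (Set.range z) := by
    have := computes_diag (fun p : Fin m × Fin n => y p.1 p.2)
      (fun p => zeta (n * m) ^ ((p.2 : ℕ) * (p.1 : ℕ)))
    rwa [Fintype.card_prod, Fintype.card_fin, Fintype.card_fin] at this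
  -- step 3
  have s3 : Computes (n * b) (Set.range z) (⋃ i₁ ∈ (Finset.univ : Finset (Fin n)),
      Set.range fun i₂ : Fin m => ∑ j₂ : Fin m, zeta m ^ ((i₂ : ℕ) * (j₂ : ℕ)) • z (j₂, i₁)) := by
    have := computes_iUnion (Finset.univ : Finset (Fin n)) b (Set.range z)
      (fun i₁ => Set.range fun i₂ : Fin m =>
        ∑ j₂ : Fin m, zeta m ^ ((i₂ : ℕ) * (j₂ : ℕ)) • z (j₂, i₁)) (fun i₁ _ => by
        refine (hb V (fun j₂ => z (j₂, i₁))).mono ?_ (Set.subset_insert _ _)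
        rintro _ ⟨j₂, rfl⟩
        right; exact ⟨_, rfl⟩)
    rwa [Finset.card_univ, Fintype.card_fin] at this
  refine ((s1'.trans s2).trans s3).mono (Set.subset_insert _ _) ?_
  rintro _ ⟨i, rfl⟩
  right
  simp only [Set.mem_iUnion]
  have hi1 : (i : ℕ) % n < n := Nat.mod_lt _ (Nat.pos_of_ne_zero hn)
  have hi2 : (i : ℕ) / n < m := Nat.div_lt_of_lt_mul i.2
  refine ⟨⟨i % n, hi1⟩, Finset.mem_univ _, ⟨i / n, hi2⟩, ?_⟩
  simp only [z, y, Finset.smul_sum, smul_smul]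
  rw [← (finProdFinEquiv (m := n) (n := m)).sum_comp, Fintype.sum_prod_type, Finset.sum_comm]
  refine Finset.sum_congr rfl fun j₁ _ => Finset.sum_congr rfl fun j₂ _ => ?_
  congr 1
  have e1 : ((finProdFinEquiv (j₁, j₂) : Fin (n * m)) : ℕ) = (j₂ : ℕ) + m * (j₁ : ℕ) := by
    simp [finProdFinEquiv_apply_val]
  rw [e1]
  set r := (i : ℕ) % n
  set d := (i : ℕ) / n
  have hi : (i : ℕ) = r + n * d := (Nat.mod_add_div _ _).symm
  rw [hi]
  have z1 : zeta (n * m) ^ m = zeta n := zeta_mul_pow n m hn hm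
  have z2 : zeta (n * m) ^ n = zeta m := by
    rw [Nat.mul_comm]; exact zeta_mul_pow m n hm hn
  have z3 : zeta (n * m) ^ (n * m) = 1 := zeta_pow _ (Nat.mul_ne_zero hn hm)
  have e2 : (r + n * d) * ((j₂ : ℕ) + m * (j₁ : ℕ))
      = n * (d * j₂) + (r * j₂ + m * (r * j₁)) + (n * m) * (d * j₁) := by ring
  have f1 : zeta (n * m) ^ (n * (d * (j₂ : ℕ))) = zeta m ^ (d * (j₂ : ℕ)) := by rw [pow_mul, z2]
  have f2 : zeta (n * m) ^ (m * (r * (j₁ : ℕ))) = zeta n ^ (r * (j₁ : ℕ)) := by rw [pow_mul, z1]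
  have f3 : zeta (n * m) ^ ((n * m) * (d * (j₁ : ℕ))) = 1 := by rw [pow_mul, z3, one_pow]
  rw [e2, pow_add, pow_add, pow_add, f1, f2, f3]
  ring

end Vale.Agent.H20.P344
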