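import Mathlib

namespace Vale.Agent.H20.P344

/-- `Computes k S T`: if the linear forms in `S` (and `0`) are available, then `k` gates
(each computing `u + v`, `u - v` or `c • u` from available forms `u`, `v`) suffice to make all forms
in `T` available. -/
inductive Computes {V : Type} [AddCommGroup V] [Module ℂ V] : ℕ → Set V → Set V → Prop
  | done (S T : Set V) (h : T ⊆ insert 0 S) : Computes 0 S T
  | add (k : ℕ) (S T : Set V) (u v : V) (hu : u ∈ insert 0 S) (hv : v ∈ insert 0 S)
      (h : Computes k (insert (u + v) S) T) : Computes (k + 1) S T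
  | sub (k : ℕ) (S T : Set V) (u v : V) (hu : u ∈ insert 0 S) (hv : v ∈ insert 0 S)
      (h : Computes k (insert (u - v) S) T) : Computes (k + 1) S T
  | smul (k : ℕ) (S T : Set V) (c : ℂ) (u : V) (hu : u ∈ insert 0 S)
      (h : Computes k (insert (c • u) S) T) : Computes (k + 1) S T

/-- the root of unity `e^(2 π i / n)` -/
noncomputable def zeta (n : ℕ) : ℂ := Complex.exp (2 * Real.pi * Complex.I / n)

/-- the least number of gates of a linear circuit which computes the discrete Fourier transform
`x ↦ (∑ j, ζ^(i j) x_j)_i` of `ℂ^n`; the inputs are the coordinate forms -/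
noncomputable def L (n : ℕ) : ℕ :=
  sInf {k | Computes k (Set.range fun j : Fin n => (Pi.single j 1 : Fin n → ℂ))
    (Set.range fun i : Fin n => fun j : Fin n => zeta n ^ ((i : ℕ) * (j : ℕ)))}

end Vale.Agent.H20.P344
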