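import Vale.Agent.H20.P344.Blu

namespace Vale.Agent.H20.P344

open Filter Topology

noncomputable def phi (n : ℕ) : ℝ := (L n : ℝ) / n + 1

theorem phi_pos (n : ℕ) : 0 < phi n := by unfold phi; positivity

theorem phi_mul {n m : ℕ} (hn : n ≠ 0) (hm : m ≠ 0) : phi (n * m) ≤ phi n + phi m := by
  have h : (L (n * m) : ℝ) ≤ m * L n + m * n + n * L m := by
    exact_mod_cast L_le (dft_mul hn hm (dft_L n) (dft_L m))
  have hn' : (0 : ℝ) < n := by exact_mod_cast Nat.pos_of_ne_zero hn
  have hm' : (0 : ℝ) < m := by exact_mod_cast Nat.pos_of_ne_zero hm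
  unfold phi
  push_cast
  have h2 : (L (n * m) : ℝ) / (n * m) ≤ (m * L n + m * n + n * L m) / (n * m) := by
    gcongr
  have h3 : ((m : ℝ) * L n + m * n + n * L m) / (n * m) = L n / n + 1 + L m / m := by
    field_simp
  linarith

theorem phi_pow {m : ℕ} (hm : m ≠ 0) (k : ℕ) : phi (m ^ k) ≤ phi 1 + k * phi m := by
  induction k with
  | zero => simp
  | succ k ih =>
    rw [pow_succ]
    have := phi_mul (pow_ne_zero k hm) hm
    push_cast
    linarith

theorem L_le_of_two_mul {n N : ℕ} (hn : n ≠ 0) (hN : 2 * n ≤ N) :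
    (L n : ℝ) ≤ 2 * n + 2 * L N + N := by
  have h : L n ≤ n + L N + N + L N + n := L_le (bluestein hn hN (dft_L N))
  have h' : (L n : ℝ) ≤ n + L N + N + L N + n := by exact_mod_cast h
  linarith

theorem bound {m : ℕ} (hm : 2 ≤ m) {ε : ℝ} (hε : 0 < ε) (h : phi m ≤ ε * Real.log m) :
    ∃ K : ℝ, ∀ n : ℕ, 1 ≤ n → (L n : ℝ) ≤ n * (K + 8 * ε * Real.log n) := by
  refine ⟨6 + 8 * (2 * phi 1 + (m + 1) * phi 2) + 8 * ε * Real.log 2, fun n hn => ?_⟩
  set k := Nat.log m (2 * n) with hk
  have hk1 : m ^ k ≤ 2 * n := Nat.pow_log_le_self m (by omega)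
  have hk2 : 2 * n < m ^ (k + 1) := Nat.lt_pow_succ_log_self (by omega) _
  have hex : ∃ j, 2 * n ≤ m ^ k * 2 ^ j := by
    refine ⟨m, ?_⟩
    have : m < 2 ^ m := Nat.lt_two_pow_self
    rw [pow_succ] at hk2
    exact (hk2.trans_le (Nat.mul_le_mul_left _ this.le)).le
  classical
  set j := Nat.find hex with hj
  have hj1 : 2 * n ≤ m ^ k * 2 ^ j := Nat.find_spec hex
  have hjm : j ≤ m := Nat.find_min' hex (by
    have : m < 2 ^ m := Nat.lt_two_pow_self
    rw [pow_succ] at hk2
    exact (hk2.trans_le (Nat.mul_le_mul_left _ this.le)).le)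
  have hj2 : m ^ k * 2 ^ j ≤ 4 * n := by
    rcases Nat.eq_zero_or_pos j with h0 | h0
    · rw [h0, pow_zero, mul_one]; omega
    · have h1 : ¬ 2 * n ≤ m ^ k * 2 ^ (j - 1) := Nat.find_min hex (by omega)
      have h2 : 2 ^ j = 2 * 2 ^ (j - 1) := by
        rw [← pow_succ']; congr 1; omega
      rw [h2]
      push Not at h1
      nlinarith
  set N := m ^ k * 2 ^ j with hN
  have hmk : m ^ k ≠ 0 := pow_ne_zero _ (by omega)
  have hphi : phi N ≤ 2 * phi 1 + (m + 1) * phi 2 + ε * Real.log (2 * n) := by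
    have h1 : phi N ≤ phi (m ^ k) + phi (2 ^ j) := phi_mul hmk (by positivity)
    have h2 := phi_pow (m := m) (by omega) k
    have h3 := phi_pow (m := 2) (by norm_num) j
    have h4 : (j : ℝ) * phi 2 ≤ (m + 1) * phi 2 := by
      apply mul_le_mul_of_nonneg_right _ (phi_pos 2).le
      have : (j : ℝ) ≤ m := by exact_mod_cast hjm
      linarith
    have h5 : (k : ℝ) * phi m ≤ ε * Real.log (2 * n) := by
      have h6 : (k : ℝ) * Real.log m ≤ Real.log (2 * n) := by
        rw [← Real.log_pow]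
        apply Real.log_le_log
        · have : 0 < m := by omega
          positivity
        · exact_mod_cast hk1
      calc (k : ℝ) * phi m ≤ k * (ε * Real.log m) := by gcongr
        _ = ε * (k * Real.log m) := by ring
        _ ≤ _ := by gcongr
    linarith
  have hN0 : (0 : ℝ) < N := by
    have : 0 < N := by omega
    exact_mod_cast this
  have hLN : (L N : ℝ) ≤ N * phi N := by
    unfold phi
    have : (N : ℝ) * ((L N : ℝ) / N + 1) = L N + N := by field_simp
    rw [this]; linarith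
  have h1 := L_le_of_two_mul (n := n) (N := N) (by omega) hj1
  have hN4 : (N : ℝ) ≤ 4 * n := by exact_mod_cast hj2
  have hn0 : (0 : ℝ) < n := by exact_mod_cast hn
  have hlog : Real.log (2 * n) = Real.log 2 + Real.log n :=
    Real.log_mul (by norm_num) hn0.ne'
  have h2 : (N : ℝ) * phi N ≤ 4 * n * (2 * phi 1 + (m + 1) * phi 2 + ε * Real.log (2 * n)) := by
    apply mul_le_mul hN4 hphi (phi_pos N).le (by positivity)
  rw [hlog] at h2
  nlinarith

theorem one_size {m : ℕ} (hm : 2 ≤ m) : ∃ K : ℝ, ∀ n : ℕ, 1 ≤ n →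
    (L n : ℝ) ≤ n * (K + 8 * (((L m : ℝ) / m + 1) / Real.log m) * Real.log n) := by
  have hl : 0 < Real.log m := Real.log_pos (by exact_mod_cast hm)
  refine bound hm (ε := ((L m : ℝ) / m + 1) / Real.log m) (by positivity) ?_
  rw [div_mul_cancel₀ _ hl.ne']
  exact le_rfl

theorem dichotomy :
    (∃ c : ℝ, 0 < c ∧ ∀ᶠ n : ℕ in atTop, c * (n * Real.log n) ≤ L n) ∨
      Tendsto (fun n : ℕ => (L n : ℝ) / (n * Real.log n)) atTop (𝓝 0) := by
  by_cases hc : ∃ ε : ℝ, 0 < ε ∧ ∀ m : ℕ, 2 ≤ m → ε * Real.log m ≤ phi m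
  · left
    obtain ⟨ε, hε, h⟩ := hc
    refine ⟨ε / 2, by positivity, ?_⟩
    have hlog : Tendsto (fun n : ℕ => Real.log n) atTop atTop :=
      Real.tendsto_log_atTop.comp tendsto_natCast_atTop_atTop
    filter_upwards [eventually_ge_atTop 2, hlog.eventually_ge_atTop (2 / ε)] with n hn hl
    have h1 := h n hn
    have hn0 : (0 : ℝ) < n := by
      have : 0 < n := by omega
      exact_mod_cast this
    unfold phi at h1
    have h2 : ε * Real.log n - 1 ≤ L n / n := by linarith
    rw [le_div_iff₀ hn0] at h2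
    have h3 : 1 ≤ ε / 2 * Real.log n := by
      rw [div_le_iff₀ hε] at hl
      linarith
    nlinarith
  · right
    push Not at hc
    rw [Metric.tendsto_atTop]
    intro δ hδ
    obtain ⟨m, hm, hm2⟩ := hc (δ / 32) (by positivity)
    obtain ⟨K, hK⟩ := bound hm (by positivity) hm2.le
    have hlog : Tendsto (fun n : ℕ => Real.log n) atTop atTop :=
      Real.tendsto_log_atTop.comp tendsto_natCast_atTop_atTop
    obtain ⟨n₀, hn₀⟩ := Filter.eventually_atTop.1
      ((eventually_ge_atTop 2).and (hlog.eventually_ge_atTop (max 1 (4 * |K| / δ))))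
    refine ⟨n₀, fun n hn => ?_⟩
    obtain ⟨hn2, hl⟩ := hn₀ n hn
    have hn0 : (0 : ℝ) < n := by
      have : 0 < n := by omega
      exact_mod_cast this
    have hl1 : 1 ≤ Real.log n := (le_max_left _ _).trans hl
    have hl2 : 4 * |K| / δ ≤ Real.log n := (le_max_right _ _).trans hl
    rw [div_le_iff₀ hδ] at hl2
    have h1 := hK n (by omega)
    have hpos : 0 < (n : ℝ) * Real.log n := by positivity
    rw [Real.dist_eq, sub_zero, abs_of_nonneg (by positivity), div_lt_iff₀ hpos]
    have h2 := le_abs_self K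
    have h3 : K + 8 * (δ / 32) * Real.log n < δ * Real.log n := by nlinarith
    calc (L n : ℝ) ≤ n * (K + 8 * (δ / 32) * Real.log n) := h1
      _ < n * (δ * Real.log n) := by gcongr
      _ = _ := by ring

end Vale.Agent.H20.P344
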